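import Vale.Agent.P237.Petty.Cor.Mid50.Poly

/-!
# P237: constants of the cell from `19 / 2 / (p + 2)` to `29 / 50`, `31 ≤ p ≤ 47`, middle orders
-/

namespace Vale.Agent.P237.Petty.Cor.Mid32.Cell3

open Mid50

/-- The piece on `[0, 3 / 25]`. -/
def piece1 : Piece :=
  ⟨(0), (3 / 25), (1 / 32), (9999 / 10000), (5001 / 10000), (10001 / 10000),
    (2501 / 5000), (9717 / 5000), (24519 / 2500), (0), (22723 / 10000), true⟩

/-- The piece on `[3 / 25, 1 / 4]`. -/
def piece2 : Piece :=
  ⟨(3 / 25), (1 / 4), (1 / 32), (9999 / 10000), (313 / 625), (10001 / 10000),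
    (5009 / 10000), (10079 / 5000), (9213 / 2500), (0), (22723 / 10000), true⟩

/-- The piece on `[1 / 4, 2 / 5]`. -/
def piece3 : Piece :=
  ⟨(1 / 4), (2 / 5), (1 / 32), (9999 / 10000), (5023 / 10000), (10001 / 10000),
    (314 / 625), (19321 / 10000), (21419 / 10000), (1 / 4), (5223 / 2500), true⟩

/-- The piece on `[2 / 5, 11 / 20]`. -/
def piece4 : Piece :=
  ⟨(2 / 5), (11 / 20), (1 / 32), (9999 / 10000), (631 / 1250), (1),
    (5049 / 10000), (19743 / 10000), (15463 / 10000), (2 / 5), (10199 / 5000), true⟩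

/-- The piece on `[11 / 20, 7 / 10]`. -/
def piece5 : Piece :=
  ⟨(11 / 20), (7 / 10), (1 / 32), (9999 / 10000), (2541 / 5000), (1),
    (5083 / 10000), (20643 / 10000), (31 / 25), (11 / 20), (20359 / 10000), true⟩

/-- The piece on `[7 / 10, 17 / 20]`. -/
def piece6 : Piece :=
  ⟨(7 / 10), (17 / 20), (1 / 32), (4999 / 5000), (41 / 80), (1),
    (2563 / 5000), (21637 / 10000), (10423 / 10000), (11 / 20), (20359 / 10000), true⟩

/-- The piece on `[17 / 20, 1]`. -/
def piece7 : Piece :=
  ⟨(17 / 20), (1), (1 / 32), (9997 / 10000), (2589 / 5000), (9999 / 10000),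
    (259 / 500), (22683 / 10000), (1803 / 2000), (11 / 20), (20359 / 10000), true⟩

/-- The piece on `[1, 6 / 5]`. -/
def piece8 : Piece :=
  ⟨(1), (6 / 5), (1 / 32), (1999 / 2000), (5257 / 10000), (9997 / 10000),
    (2629 / 5000), (11983 / 5000), (7799 / 10000), (11 / 20), (20359 / 10000), true⟩

/-- The piece on `[6 / 5, 7 / 5]`. -/
def piece9 : Piece :=
  ⟨(6 / 5), (7 / 5), (1 / 32), (9991 / 10000), (2681 / 5000), (9993 / 10000),
    (1341 / 2500), (25493 / 10000), (423 / 625), (11 / 20), (20359 / 10000), true⟩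

/-- The piece on `[7 / 5, 2]`. -/
def piece10 : Piece :=
  ⟨(7 / 5), (2), (1 / 32), (997 / 1000), (5693 / 10000), (4989 / 5000),
    (5701 / 10000), (28767 / 10000), (334 / 625), (11 / 20), (20359 / 10000), false⟩

/-- The piece on `[2, 23 / 10]`. -/
def piece11 : Piece :=
  ⟨(2), (23 / 10), (1 / 32), (9927 / 10000), (6101 / 10000), (621 / 625),
    (6111 / 10000), (1303 / 400), (4341 / 10000), (11 / 20), (20359 / 10000), false⟩

/-- The piece on `[23 / 10, 13 / 5]`. -/
def piece12 : Piece :=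
  ⟨(23 / 10), (13 / 5), (1 / 32), (987 / 1000), (6503 / 10000), (9883 / 10000),
    (3259 / 5000), (17617 / 5000), (3853 / 10000), (11 / 20), (20359 / 10000), false⟩

/-- The piece on `[13 / 5, 59 / 20]`. -/
def piece13 : Piece :=
  ⟨(13 / 5), (59 / 20), (1 / 32), (1953 / 2000), (442 / 625), (9789 / 10000),
    (7103 / 10000), (1909 / 500), (1717 / 5000), (11 / 20), (20359 / 10000), false⟩

/-- The piece on `[59 / 20, 33 / 10]`. -/
def piece14 : Piece :=
  ⟨(59 / 20), (33 / 10), (1 / 32), (9579 / 10000), (7867 / 10000), (601 / 625),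
    (317 / 400), (41407 / 10000), (1537 / 5000), (11 / 20), (20359 / 10000), false⟩

/-- The piece on `[33 / 10, 89 / 25]`. -/
def piece15 : Piece :=
  ⟨(33 / 10), (89 / 25), (1 / 32), (373 / 400), (8751 / 10000), (9369 / 10000),
    (1767 / 2000), (11063 / 2500), (2817 / 10000), (11 / 20), (20359 / 10000), false⟩

/-- The piece on `[89 / 25, 77 / 20]`. -/
def piece16 : Piece :=
  ⟨(89 / 25), (77 / 20), (1 / 32), (4477 / 5000), (9849 / 10000), (1127 / 1250),
    (10003 / 10000), (46863 / 10000), (1309 / 5000), (11 / 20), (20359 / 10000), false⟩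

/-- The piece on `[77 / 20, 104 / 25]`. -/
def piece17 : Piece :=
  ⟨(77 / 20), (104 / 25), (1 / 32), (2079 / 2500), (11461 / 10000), (2099 / 2500),
    (11763 / 10000), (3108 / 625), (2431 / 10000), (11 / 20), (20359 / 10000), false⟩

/-- The piece on `[104 / 25, 89 / 20]`. -/
def piece18 : Piece :=
  ⟨(104 / 25), (89 / 20), (1 / 32), (3641 / 5000), (2743 / 2000), (919 / 1250),
    (7147 / 5000), (5261 / 1000), (2269 / 10000), (11 / 20), (20359 / 10000), false⟩

/-- The piece on `[89 / 20, 453 / 100]`. -/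
def piece19 : Piece :=
  ⟨(89 / 20), (453 / 100), (1 / 32), (3221 / 5000), (7683 / 5000), (1293 / 2000),
    (3191 / 2000), (10877 / 2000), (109 / 500), (11 / 20), (20359 / 10000), false⟩

/-- The piece on `[453 / 100, 23 / 5]`. -/
def piece20 : Piece :=
  ⟨(453 / 100), (23 / 5), (121 / 4000), (6261 / 10000), (15707 / 10000), (3137 / 5000),
    (16241 / 10000), (13781 / 2500), (429 / 2000), (11 / 20), (20359 / 10000), false⟩

/-- The piece on `[23 / 5, 467 / 100]`. -/
def piece21 : Piece :=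
  ⟨(23 / 5), (467 / 100), (59 / 2000), (603 / 1000), (2017 / 1250), (3017 / 5000),
    (333 / 200), (55801 / 10000), (1057 / 5000), (11 / 20), (20359 / 10000), false⟩

/-- The piece on `[467 / 100, 19 / 4]`. -/
def piece22 : Piece :=
  ⟨(467 / 100), (19 / 4), (57 / 2000), (1459 / 2500), (16491 / 10000), (5833 / 10000),
    (8479 / 5000), (3534 / 625), (2081 / 10000), (11 / 20), (20359 / 10000), false⟩

/-- The piece on `[19 / 4, 241 / 50]`. -/
def piece23 : Piece :=
  ⟨(19 / 4), (241 / 50), (11 / 400), (5659 / 10000), (16813 / 10000), (5651 / 10000),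
    (8601 / 5000), (11453 / 2000), (41 / 200), (11 / 20), (20359 / 10000), false⟩

/-- The piece on `[241 / 50, 49 / 10]`. -/
def piece24 : Piece :=
  ⟨(241 / 50), (49 / 10), (107 / 4000), (2689 / 5000), (4329 / 2500), (1341 / 2500),
    (17681 / 10000), (7251 / 1250), (2019 / 10000), (11 / 20), (20359 / 10000), false⟩

/-- The piece on `[49 / 10, 249 / 50]`. -/
def piece25 : Piece :=
  ⟨(49 / 10), (249 / 50), (13 / 500), (5053 / 10000), (1118 / 625), (2517 / 5000),
    (2277 / 1250), (7347 / 1250), (497 / 2500), (11 / 20), (20359 / 10000), false⟩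

/-- The piece on `[249 / 50, 253 / 50]`. -/
def piece26 : Piece :=
  ⟨(249 / 50), (253 / 50), (1 / 40), (4837 / 10000), (18263 / 10000), (4819 / 10000),
    (18513 / 10000), (59569 / 10000), (1957 / 10000), (11 / 20), (20359 / 10000), false⟩

/-- The piece on `[253 / 50, 257 / 50]`. -/
def piece27 : Piece :=
  ⟨(253 / 50), (257 / 50), (97 / 4000), (9 / 20), (18841 / 10000), (4483 / 10000),
    (19043 / 10000), (30167 / 5000), (241 / 1250), (11 / 20), (20359 / 10000), false⟩

/-- The piece on `[257 / 50, 261 / 50]`. -/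
def piece28 : Piece :=
  ⟨(257 / 50), (261 / 50), (47 / 2000), (2077 / 5000), (9713 / 5000), (4139 / 10000),
    (9789 / 5000), (15281 / 2500), (1899 / 10000), (11 / 20), (20359 / 10000), false⟩

/-- The piece on `[261 / 50, 53 / 10]`. -/
def piece29 : Piece :=
  ⟨(261 / 50), (53 / 10), (23 / 1000), (3639 / 10000), (5071 / 2500), (1811 / 5000),
    (5103 / 2500), (6191 / 1000), (1871 / 10000), (11 / 20), (20359 / 10000), false⟩

/-- The piece on `[53 / 10, 539 / 100]`. -/
def piece30 : Piece :=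
  ⟨(53 / 10), (539 / 100), (89 / 4000), (3203 / 10000), (5249 / 2500), (3191 / 10000),
    (21081 / 10000), (62751 / 10000), (921 / 5000), (11 / 20), (20359 / 10000), false⟩

/-- The piece on `[539 / 100, 273 / 50]`. -/
def piece31 : Piece :=
  ⟨(539 / 100), (273 / 50), (43 / 2000), (353 / 1250), (2701 / 1250), (2819 / 10000),
    (541 / 250), (7941 / 1250), (227 / 1250), (11 / 20), (20359 / 10000), false⟩

/-- The constants. -/
def data : Data where
  mlo := 32
  mhi := 48
  hk := (6361 / 5000)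
  g := (561 / 1000)
  n0 := (1311 / 1000)
  n1 := (249 / 100)
  g1 := (353 / 100)
  a := (93 / 200)
  l0 := (-3581 / 1000)
  l1 := (542 / 125)
  phi := (77 / 100)
  v1 := (51 / 50)
  z2 := (31 / 50)
  ev := (17861 / 10000)
  low := true
  pieces := [piece1, piece2, piece3, piece4, piece5, piece6, piece7, piece8, piece9, piece10,
    piece11, piece12, piece13, piece14, piece15, piece16, piece17, piece18, piece19, piece20,
    piece21, piece22, piece23, piece24, piece25, piece26, piece27, piece28, piece29, piece30,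
    piece31]
  terms := [⟨0, 0, (129 / 50)⟩, ⟨1, 0, (-1599 / 250)⟩, ⟨2, 0, (481 / 100)⟩, ⟨3, 0, (-857 / 1000)⟩,
    ⟨4, 0, (21 / 125)⟩, ⟨5, 0, (-1 / 100)⟩, ⟨2, 1, (-1693 / 1000)⟩, ⟨3, 2, (292 / 125)⟩,
    ⟨4, 3, (-3157 / 1000)⟩, ⟨5, 3, (8 / 25)⟩]

end Vale.Agent.P237.Petty.Cor.Mid32.Cell3
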